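import Vale.Agent.Lib.P007.Composite

namespace Vale.Agent.Results.P007.CompositeDisproof

open Vale.Agent.Lib.P007 MeasureTheory Filter Topology

/-- Disproof of the higher-dimensional Duke problem in every composite degree `n`: there is a
sequence of orders `O_i` in totally real fields of degree `n` with `|Disc O_i| → ∞` such that no
sequence of measures carried by the packets of the `O_i` (in particular the packet measures)
converges, even vaguely, to an `SL_n(ℝ)`-invariant probability measure on `X_n`. -/
theorem result (n : ℕ) (hn : ∃ d e : ℕ, 2 ≤ d ∧ 2 ≤ e ∧ n = d * e) :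
    ∃ D : ℕ → OrderDatum n,
      Tendsto (fun i => |Algebra.discr ℚ (D i).basis|) atTop atTop ∧
      ∀ (μ : ℕ → Measure (X n)) (m : Measure (X n)),
        (∀ i, ∀ᵐ x ∂(μ i), x ∈ packetSupport (D i)) →
        IsProbabilityMeasure m →
        (∀ h : Matrix.SpecialLinearGroup (Fin n) ℝ, Measure.map (rightMul h) m = m) →
        ¬ ∀ f : X n → ℝ, Continuous f → HasCompactSupport f →
          Tendsto (fun i => ∫ x, f x ∂(μ i)) atTop (𝓝 (∫ x, f x ∂m)) :=
  composite_disproof n hn

end Vale.Agent.Results.P007.CompositeDisproof
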