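import Vale.Agent.Lib.P007.MaximalMain

namespace Vale.Agent.Results.P007.MaximalOrders

open Vale.Agent.Lib.P007 MeasureTheory Filter Topology

/-- Disproof of the higher-dimensional Duke problem for maximal orders in every composite degree
`n`: there are totally real fields `K_i` of degree `n` whose rings of integers `O_i` have
`|Disc O_i| → ∞`, such that no sequence of measures carried by the packets of the `O_i` (in
particular the packet measures) converges, even vaguely, to an `SL_n(ℝ)`-invariant probability
measure on `X_n`. -/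
theorem result (n : ℕ) (hn : ∃ d e : ℕ, 2 ≤ d ∧ 2 ≤ e ∧ n = d * e) :
    ∃ D : ℕ → OrderDatum n,
      (∀ i, ∀ x : (D i).K, x ∈ (D i).O ↔ IsIntegral ℤ x) ∧
      Tendsto (fun i => |Algebra.discr ℚ (D i).basis|) atTop atTop ∧
      ∀ (μ : ℕ → Measure (X n)) (m : Measure (X n)),
        (∀ i, ∀ᵐ x ∂(μ i), x ∈ packetSupport (D i)) →
        IsProbabilityMeasure m →
        (∀ h : Matrix.SpecialLinearGroup (Fin n) ℝ, Measure.map (rightMul h) m = m) →
        ¬ ∀ f : X n → ℝ, Continuous f → HasCompactSupport f →
          Tendsto (fun i => ∫ x, f x ∂(μ i)) atTop (𝓝 (∫ x, f x ∂m)) :=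
  maximal_disproof n hn

end Vale.Agent.Results.P007.MaximalOrders
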