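import Vale.Agent.Lib.P007.MaximalMain

namespace Vale.Agent.Results.P007.MaximalStrong

open Vale.Agent.Lib.P007 MeasureTheory Filter Topology

/-- Strong form of the disproof of the higher-dimensional Duke problem for maximal orders in
every composite degree `n`: there are totally real fields `K_i` of degree `n` whose rings of
integers `O_i` have `|Disc O_i| → ∞`, and one closed set `Y ⊆ X_n`, null for every
`SL_n(ℝ)`-invariant probability measure, which contains all the (nonempty) packets of the `O_i`.
Hence every vague limit `ν` of a subsequence of measures carried by these packets is carried by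
`Y`, and no such subsequence converges vaguely to an invariant probability measure. -/
theorem result (n : ℕ) (hn : ∃ d e : ℕ, 2 ≤ d ∧ 2 ≤ e ∧ n = d * e) :
    ∃ (D : ℕ → OrderDatum n) (Y : Set (X n)),
      (∀ i, ∀ x : (D i).K, x ∈ (D i).O ↔ IsIntegral ℤ x) ∧
      Tendsto (fun i => |Algebra.discr ℚ (D i).basis|) atTop atTop ∧
      IsClosed Y ∧
      (∀ i, (packetSupport (D i)).Nonempty ∧ packetSupport (D i) ⊆ Y) ∧
      (∀ m : Measure (X n), IsProbabilityMeasure m →
        (∀ h : Matrix.SpecialLinearGroup (Fin n) ℝ, Measure.map (rightMul h) m = m) →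
        m Y = 0) ∧
      (∀ (μ : ℕ → Measure (X n)) (ν : Measure (X n)),
        (∀ i, ∀ᵐ x ∂(μ i), x ∈ packetSupport (D i)) →
        IsFiniteMeasureOnCompacts ν →
        ∀ φ : ℕ → ℕ, StrictMono φ →
          (∀ f : X n → ℝ, Continuous f → HasCompactSupport f →
            Tendsto (fun i => ∫ x, f x ∂(μ (φ i))) atTop (𝓝 (∫ x, f x ∂ν))) →
          ν Yᶜ = 0) ∧
      ∀ (μ : ℕ → Measure (X n)) (m : Measure (X n)),
        (∀ i, ∀ᵐ x ∂(μ i), x ∈ packetSupport (D i)) →
        IsProbabilityMeasure m →
        (∀ h : Matrix.SpecialLinearGroup (Fin n) ℝ, Measure.map (rightMul h) m = m) →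
        ∀ φ : ℕ → ℕ, StrictMono φ →
          ¬ ∀ f : X n → ℝ, Continuous f → HasCompactSupport f →
            Tendsto (fun i => ∫ x, f x ∂(μ (φ i))) atTop (𝓝 (∫ x, f x ∂m)) :=
  maximal_strong n hn

end Vale.Agent.Results.P007.MaximalStrong
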