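import Vale.Agent.Lib.P007.House

namespace Vale.Agent.Results.P007.NecessaryCondition

open Vale.Agent.Lib.P007 MeasureTheory Filter Topology

/-- A necessary condition for equidistribution of torus packets, in every degree `n`: if measures
carried by the packets of orders `O_i` (for instance the packet measures) converge vaguely to an
`SL_n(ℝ)`-invariant probability measure on `X_n`, then the smallest element of `O_i` that is not
a rational integer, measured by its largest conjugate, tends to infinity: for every bound `B`,
for all large `i` every `r ∈ O_i` outside `ℤ` has a real embedding with `|σ_j(r)| > B`. -/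
theorem result {n : ℕ} (D : ℕ → OrderDatum n)
    (μ : ℕ → Measure (X n)) (m : Measure (X n))
    (hμ : ∀ i, ∀ᵐ x ∂(μ i), x ∈ packetSupport (D i))
    (hm : IsProbabilityMeasure m)
    (hinv : ∀ h : Matrix.SpecialLinearGroup (Fin n) ℝ, Measure.map (rightMul h) m = m)
    (hconv : ∀ f : X n → ℝ, Continuous f → HasCompactSupport f →
      Tendsto (fun i => ∫ x, f x ∂(μ i)) atTop (𝓝 (∫ x, f x ∂m))) (B : ℝ) :
    ∀ᶠ i in atTop, ∀ r ∈ (D i).O, (∀ z : ℤ, r ≠ (z : (D i).K)) →
      ∃ j, B < |(D i).σ j r| :=
  house_tendsto_of_vague_convergence D μ m hμ hm hinv hconv B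

end Vale.Agent.Results.P007.NecessaryCondition
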